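import Vale.Agent.P352G44.Spec
import Vale.Agent.P352X.EG.SG
import Vale.Agent.P352X.EG.BWS

/-!
# P352G, row NAT: symmetries of the wedge commute with its modular conjugation
-/

set_option linter.all false

noncomputable section

namespace Vale.Agent.P352G29

open Vale.Agent.P352 Vale.Agent.P352.GF Vale.Agent.P352.BW Vale.Agent.P352.H246 Vale.Agent.P352.H496
open Vale.Agent.P352.H15 Vale.Agent.P352X Vale.Agent.P352G Vale.Agent.P352G44
open Vale.Agent.P352X.EB (W0)
open Vale.Agent.P132 (ModData)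
open UniformSpace (Completion)

variable {D : Type*} [NormedAddCommGroup D] [InnerProductSpace ℂ D]

/-- an element of the graded group that fixes the wedge commutes with `J` -/
theorem natg {c : EG.Cg D} (E : ModData (EG.M0 c) c.Om) (g : EG.Sh c)
    (hg : ∀ x, g.act x ∈ W0 ↔ x ∈ W0) (z : Completion D) : E.J (g.U c z) = g.U c (E.J z) := by
  have t := EG.sg_row c
  have img : g.act '' W0 = W0 := Set.Subset.antisymm
    (by rintro _ ⟨x, hx, rfl⟩; exact (hg x).2 hx)
    fun x hx => ⟨g.inv.act x, (hg _).1 (by rw [t.act_inv]; exact hx), t.act_inv g x⟩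
  have hu := t.uni g
  have e1 : ∀ z, star (g.U c) (g.U c z) = z := fun z =>
    congrArg (fun A : Completion D →L[ℂ] Completion D => A z) hu.1
  have h := T.n (EG.M0 c) c.Om E (Unitary.linearIsometryEquiv ⟨_, hu⟩) (t.vac g).1
    (fun X hX => ⟨_, by have := (t.alg g W0 X).1 hX; rwa [img] at this, fun z =>
      congrArg (fun w => g.U c (X w)) (e1 z)⟩)
    fun Y hY => ⟨star (g.U c) * Y * g.U c, (t.alg g W0 _).2 (by
      rw [img, ← mul_assoc, ← mul_assoc, hu.2, one_mul, mul_assoc, hu.2, mul_one]; exact hY),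
      fun z => (congrArg (fun A : Completion D →L[ℂ] Completion D =>
        A (Y (g.U c z))) hu.2).symm⟩
  exact (h.2 z).symm

theorem mem_iff {x y : V} {p q : ℝ} (hp : 0 < p) (hq : 0 < q)
    (h1 : GF.mdot va y = p * GF.mdot va x) (h2 : GF.mdot vb y = q * GF.mdot vb x) :
    y ∈ W0 ↔ x ∈ W0 := by
  simp only [Wdg, Set.mem_setOf_eq, sub_zero, h1, h2]
  exact ⟨fun h => ⟨by by_contra k; nlinarith [h.1, mul_nonneg hp.le (not_lt.1 k)], (mul_pos_iff_of_pos_left hq).1 h.2⟩,
    fun h => ⟨mul_neg_of_pos_of_neg hp h.1, mul_pos hq h.2⟩⟩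

theorem jr_ap (z : V) (m : Ix) : jr z m = sj m * z m := by
  fin_cases m <;>
    simp [jr, P352X.pt, al, be, tx, sj, va, vb, GF.mdot, Fin.sum_univ_four, eta, o] <;> ring

theorem jr_zero : jr 0 = 0 := funext fun m => by rw [jr_ap]; simp

theorem jr_tv (x : R2) : jr (P352X.tv x) = P352X.tv x := funext fun m => by
  rw [jr_ap]
  fin_cases m <;> simp [sj, P352X.tv, P352X.pt]

theorem jL_one : jL GF.one = GF.one := by
  funext m n
  fin_cases m <;> fin_cases n <;> simp [jL, sj, GF.one, bas]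

theorem jL_bq (t : ℝ) : jL (T.bq va vb t) = T.bq va vb t := by
  funext m n
  simp only [jL, T.bq, H755.bst, Pi.add_apply, Pi.smul_apply, bas]
  fin_cases m <;> fin_cases n <;> simp [sj, va, vb]

theorem jL_st {L : Ix → V} (hL : IsLor L) (ha : sim 1 L 0 va = va) (hb : sim 1 L 0 vb = vb) :
    jL L = L := by
  have a := fun n => congrFun ha n
  have b := fun n => congrFun hb n
  simp only [sim, Fin.sum_univ_four, va, vb] at a b
  have a0 := a 0
  have a1 := a 1
  have a2 := a 2
  have a3 := a 3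
  have b0 := b 0
  have b1 := b 1
  have b2 := b 2
  have b3 := b 3
  simp at a0 a1 a2 a3 b0 b1 b2 b3
  have e00 : L 0 0 = 1 := by linarith
  have e01 : L 0 1 = 0 := by linarith
  have e02 : L 0 2 = 0 := by linarith
  have e03 : L 0 3 = 0 := by linarith
  have e10 : L 1 0 = 0 := by linarith
  have e11 : L 1 1 = 1 := by linarith
  have e12 : L 1 2 = 0 := by linarith
  have e13 : L 1 3 = 0 := by linarith
  have c0 := hL.1 2 0
  have c1 := hL.1 2 1
  have c2 := hL.1 3 0
  have c3 := hL.1 3 1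
  simp [GF.mdot, Fin.sum_univ_four, eta, o, bas, e00, e01, e02, e03, e10, e11, e12, e13]
    at c0 c1 c2 c3
  funext m n
  fin_cases m <;> fin_cases n <;> simp [jL, sj, e02, e03, e12, e13, c0, c1, c2, c3]

variable [GrD D]

theorem jx {Q : Theory D} {A : (V → V) → D → D} {𝒜 : Set V → VonNeumannAlgebra (Completion D)}
    (h : LNmZ Q A 𝒜) (E : ModData (𝒜 (Wdg va vb 0)) (om Q)) {s : ℝ} {L : Ix → V} {a : V}
    (hs : 0 < s) (hL : IsLor L) (e1 : jL L = L) (e2 : jr a = a)
    (hg : ∀ x, sim s L a x ∈ W0 ↔ x ∈ W0) : Jx E s L a := fun z => by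
  rw [e1, e2]
  exact natg (c := h.cg) E ⟨⟨s, L, a, hs, hL⟩, false⟩ hg z

variable (D)

/-- **row NAT** -/
theorem nat : NAT D := by
  intro Q A 𝒜 h E
  refine ⟨fun z => ?_, fun s hs => ?_, fun x => ?_, fun t => ?_, fun L hL ha hb => ?_⟩
  · have t := EG.sg_row h.cg
    have k := natg (c := h.cg) E (EG.Sh.gm h.cg true) (fun x => by rw [(t.gm true).2]) z
    rw [(t.gm true).1] at k
    exact k
  · refine jx h E hs H496.isLor_one jL_one jr_zero fun x => mem_iff hs hs ?_ ?_ <;>
      simp [GF.mdot, sim, GF.one, bas, Fin.sum_univ_four, va, vb, eta, o] <;> ring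
  · refine jx h E one_pos H496.isLor_one jL_one (jr_tv x) fun y => mem_iff one_pos one_pos ?_ ?_ <;>
      simp [GF.mdot, sim, GF.one, bas, Fin.sum_univ_four, va, vb, eta, o, P352X.tv, P352X.pt]
  · refine jx h E one_pos (EG.Bws.lor t) (jL_bq t) jr_zero fun x => ⟨fun hx => ?_, fun hx => ?_⟩
    · have k := T.H732W.bq_wdg null_va null_vb md_ab (-t) ⟨_, hx, rfl⟩
      rwa [EG.Bws.bq_inv (neg_add_cancel t) x] at k
    · exact T.H732W.bq_wdg null_va null_vb md_ab t ⟨x, hx, rfl⟩
  · refine jx h E one_pos hL (jL_st hL ha hb) jr_zero fun x => mem_iff one_pos one_pos ?_ ?_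
    · rw [one_mul, ← mdot_sim hL va x, ha]
    · rw [one_mul, ← mdot_sim hL vb x, hb]

end Vale.Agent.P352G29

end
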